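import Vale.Agent.P011.H436.OddN.Moves

/-!
# The two-point functional near a base point: representations and values

`c` is a character of unitary elements, `LC c r₀ w₀ C` says that the two-point functional near the
base `(r₀, 0, w₀)` depends on `r` only.  `Va U V z e` says that `e` is a value of the functional
`c (1 - t y⋆ z⁻¹ y)`, where `z + z⋆ = t y y⋆`, `t` is a symmetric scalar in `U` and `y` is in `V`.
-/

open Filter Topology

set_option linter.unusedSectionVars false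

namespace Vale.Agent.P011.H158.Psi

open Vale.Agent.P011.H436.OddN

variable {K D E : Type*} [Field K] [StarRing K] [DivisionRing D] [StarRing D] [Algebra K D]
  [StarModule K D] [CommGroup E]

section alg

variable {c : D → E} {z b y1 y2 r w a x : D} {t1 t2 t : K}

theorem smul_mul_inv (t1ne : t1 ≠ 0) (hz : z ≠ 0) :
    (t1⁻¹ • z) * ((t1 / t2) • (z⁻¹ * b)) = t2⁻¹ • b := by
  rw [smul_mul_smul_comm, ← mul_assoc, mul_inv_cancel₀ hz, one_mul]
  congr 1
  field_simp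

theorem at_rep (h1 : star t1 = t1) (h2 : star t2 = t2) (t1ne : t1 ≠ 0) (t2ne : t2 ≠ 0)
    (hz : z ≠ 0) (e1 : z + star z = t1 • (y1 * star y1))
    (e2 : b + star b = t2 • (y2 * star y2)) :
    At ((t1 / t2) • (z⁻¹ * b)) y1 y2 (t1⁻¹ • z) := by
  refine ⟨?_, ?_⟩
  · rw [star_smul, star_inv₀, h1, ← smul_add, e1, smul_smul, inv_mul_cancel₀ t1ne, one_smul]
  · rw [← star_mul, smul_mul_inv t1ne hz, star_smul, star_inv₀, h2, ← smul_add, e2, smul_smul,
      inv_mul_cancel₀ t2ne, one_smul]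

theorem FF_rep (t1ne : t1 ≠ 0) (hz : z ≠ 0) :
    FF c ((t1 / t2) • (z⁻¹ * b)) y1 y2 (t1⁻¹ • z) =
      c (uu y2 (t2⁻¹ • b)) / c (uu y1 (t1⁻¹ • z)) := by
  rw [FF, smul_mul_inv t1ne hz]

theorem at_smul_zero (ht : star t = t) (t0 : t ≠ 0) (h : At r 0 w a) :
    At (t • r) 0 w (t⁻¹ • a) := by
  refine ⟨?_, ?_⟩
  · have := h.one
    rw [star_smul, star_inv₀, ht, ← smul_add, this]
    simp
  · have h2 := h.two
    rw [star_smul, star_smul, star_inv₀, ht, smul_mul_smul_comm, smul_mul_smul_comm,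
      inv_mul_cancel₀ t0, mul_inv_cancel₀ t0, one_smul, one_smul, h2]

theorem FF_smul_zero (t0 : t ≠ 0) :
    FF c (t • r) 0 w (t⁻¹ • a) = FF c r 0 w a := by
  rw [FF, FF, smul_mul_smul_comm, inv_mul_cancel₀ t0, one_smul, uu_zero, uu_zero]

/-- `e` is a value of the functional at `z`. -/
def Va (K : Type*) [Field K] [StarRing K] [Algebra K D] (c : D → E) (U V : Set D) (z : D) (e : E) :
    Prop :=
  ∃ t : K, star t = t ∧ t ≠ 0 ∧ algebraMap K D t ∈ U ∧ ∃ y ∈ V,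
    z + star z = t • (y * star y) ∧ c (uu y (t⁻¹ • z)) = e

theorem Va.mono {U U' V V' : Set D} (hU : U ⊆ U') (hV : V ⊆ V') {e : E} (h : Va K c U V z e) :
    Va K c U' V' z e := by
  obtain ⟨t, h1, h2, h3, y, h4, h5, h6⟩ := h
  exact ⟨t, h1, h2, hU h3, y, hV h4, h5, h6⟩

/-- Conjugation. -/
theorem Va.conj {U V V' : Set D} {e : E} (hx : x ≠ 0) (hV : ∀ y ∈ V, x * y ∈ V')
    (h : Va K c U V z e) : Va K c U V' (x * z * star x) e := by
  obtain ⟨t, h1, h2, h3, y, h4, h5, h6⟩ := h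
  refine ⟨t, h1, h2, h3, x * y, hV y h4, ?_, ?_⟩
  · have : x * z * star x + star (x * z * star x) = x * (z + star z) * star x := by
      simp only [star_mul, star_star]; noncomm_ring
    rw [this, h5, mul_smul_comm, smul_mul_assoc, star_mul]
    congr 1
    simp only [mul_assoc]
  · have : t⁻¹ • (x * z * star x) = x * (t⁻¹ • z) * star x := by
      rw [mul_smul_comm, smul_mul_assoc]
    rw [this, uu_mul_left hx, h6]

end alg

section top

variable [TopologicalSpace D] {c : D → E} {r0 w0 : D} {C : D → E}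

/-- The two-point functional near the base `(r₀, 0, w₀)` depends on `r` only. -/
def LC (c : D → E) (r0 w0 : D) (C : D → E) : Prop :=
  ∀ᶠ p : D × D × D in 𝓝 (r0, 0, w0), ∀ a : D, At p.1 p.2.1 p.2.2 a →
    FF c p.1 p.2.1 p.2.2 a = C p.1

/-- Symmetric elements of the form `t y y⋆` near `w₀ w₀⋆`: `t` can be chosen near `1` and `y`
near `w₀`.  The set `S` is the set of symmetric elements which are considered. -/
def Rep (K : Type*) [Field K] [StarRing K] [Algebra K D] (S : Set D) (w0 : D) : Prop :=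
  ∀ U ∈ 𝓝 (1 : D), ∀ V ∈ 𝓝 w0, ∀ᶠ z in 𝓝 (w0 * star w0), z ∈ S →
    ∃ t : K, star t = t ∧ t ≠ 0 ∧ algebraMap K D t ∈ U ∧ ∃ y ∈ V, z = t • (y * star y)

theorem LC.zero (h : LC c r0 w0 C) :
    ∀ᶠ r in 𝓝 r0, ∀ a : D, At r 0 w0 a → FF c r 0 w0 a = C r := by
  have : Tendsto (fun r : D => (r, (0 : D), w0)) (𝓝 r0) (𝓝 (r0, 0, w0)) :=
    (continuous_id.prodMk continuous_const).tendsto r0
  exact this.eventually h

variable [IsTopologicalDivisionRing D]

/-- The value does not change when `r` is multiplied by a symmetric scalar near `1`. -/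
theorem LC.smul (h : LC c r0 w0 C) (hex : ∀ᶠ r in 𝓝 r0, ∃ a, At r 0 w0 a) :
    ∀ᶠ p : D × D in 𝓝 (1, r0), ∀ t : K, star t = t → t ≠ 0 → algebraMap K D t = p.1 →
      C (t • p.2) = C p.2 := by
  have h1 := h.zero
  have c1 : Tendsto (fun p : D × D => p.2) (𝓝 (1, r0)) (𝓝 r0) :=
    (continuous_snd.tendsto (1, r0))
  have c2 : Tendsto (fun p : D × D => p.1 * p.2) (𝓝 (1, r0)) (𝓝 r0) := by
    have : Continuous fun p : D × D => p.1 * p.2 := continuous_fst.mul continuous_snd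
    have := this.tendsto (1, r0)
    simpa only [one_mul] using this
  filter_upwards [c1.eventually h1, c2.eventually h1, c1.eventually hex] with p h2 h3 h4 t ht t0 htp
  obtain ⟨a, ha⟩ := h4
  have e1 : t • p.2 = p.1 * p.2 := by rw [← htp, Algebra.smul_def]
  rw [← h2 a ha, e1, ← h3 (t⁻¹ • a) (by rw [← e1]; exact at_smul_zero ht t0 ha), ← e1]
  exact FF_smul_zero t0

/-- **The basic step**, without the independence of the scalar. -/
theorem two_aux (h : LC c r0 w0 C) {O : Set D} (hO : O ∈ 𝓝 (1 : D)) :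
    ∃ U ∈ 𝓝 (1 : D), ∃ R ∈ 𝓝 r0, ∃ V0 ∈ 𝓝 (0 : D), ∃ V1 ∈ 𝓝 w0, ∀ (z b : D) (e e' : E),
      z ≠ 0 → z⁻¹ * b ∈ R → Va K c U V0 z e → Va K c U V1 b e' →
        ∃ t : K, star t = t ∧ t ≠ 0 ∧ algebraMap K D t ∈ O ∧ e' = C (t • (z⁻¹ * b)) * e := by
  have hcont : ContinuousAt (fun q : D × D × D × D × D => q.1 / q.2.1) (1, 1, r0, 0, w0) := by
    refine ContinuousAt.div continuous_fst.continuousAt ?_ one_ne_zero
    exact (continuous_fst.comp continuous_snd).continuousAt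
  have hcont2 : ContinuousAt (fun q : D × D × D × D × D =>
      (q.1 / q.2.1 * q.2.2.1, q.2.2.2.1, q.2.2.2.2)) (1, 1, r0, 0, w0) := by
    have h4 : ContinuousAt (fun q : D × D × D × D × D => q.2.2.1) (1, 1, r0, 0, w0) :=
      (continuous_fst.comp (continuous_snd.comp continuous_snd)).continuousAt
    have h5 : ContinuousAt (fun q : D × D × D × D × D => q.2.2.2.1) (1, 1, r0, 0, w0) :=
      (continuous_fst.comp (continuous_snd.comp (continuous_snd.comp continuous_snd))).continuousAt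
    have h6 : ContinuousAt (fun q : D × D × D × D × D => q.2.2.2.2) (1, 1, r0, 0, w0) :=
      (continuous_snd.comp (continuous_snd.comp (continuous_snd.comp continuous_snd))).continuousAt
    exact (hcont.mul h4).prodMk (h5.prodMk h6)
  have e1 : ((1 : D) / 1 * r0, (0 : D), w0) = (r0, 0, w0) := by rw [div_one, one_mul]
  have f1 := hcont.eventually (p := fun x : D => x ∈ O) (by
    show ∀ᶠ y in 𝓝 ((1 : D) / 1), y ∈ O
    rw [div_one]; exact hO)
  have f2 := hcont2.eventually (p := fun p : D × D × D => ∀ a : D, At p.1 p.2.1 p.2.2 a →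
    FF c p.1 p.2.1 p.2.2 a = C p.1) (by unfold LC at h; simpa only [e1] using h)
  have f3 := f1.and f2
  rw [nhds_prod_eq, nhds_prod_eq, nhds_prod_eq, nhds_prod_eq] at f3
  obtain ⟨p1, q1, p2, q2, g1⟩ := eventually_prod_iff.mp f3
  obtain ⟨p3, q3, p4, q4, g2⟩ := eventually_prod_iff.mp q2
  obtain ⟨p5, q5, p6, q6, g3⟩ := eventually_prod_iff.mp q4
  obtain ⟨p7, q7, p8, q8, g4⟩ := eventually_prod_iff.mp q6
  refine ⟨{x | p1 x ∧ p3 x}, q1.and q3, {x | p5 x}, q5, {x | p7 x}, q7, {x | p8 x}, q8, ?_⟩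
  rintro z b e e' hz hr ⟨t1, s1, n1, u1, y1, v1, a1, b1⟩ ⟨t2, s2, n2, u2, y2, v2, a2, b2⟩
  obtain ⟨g5, g6⟩ := g1 u1.1 (g2 u2.2 (g3 hr (g4 v1 v2)))
  have hs : star (t1 / t2) = t1 / t2 := by rw [star_div₀, s1, s2]
  have hn : t1 / t2 ≠ 0 := div_ne_zero n1 n2
  have e2 : algebraMap K D t1 / algebraMap K D t2 * (z⁻¹ * b) = (t1 / t2) • (z⁻¹ * b) := by
    rw [Algebra.smul_def, map_div₀]
  refine ⟨t1 / t2, hs, hn, by rw [map_div₀]; exact g5, ?_⟩
  have g8 := g6 (t1⁻¹ • z) (by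
    simp only [e2]
    exact at_rep s1 s2 n1 n2 hz a1 a2)
  simp only [e2] at g8
  rw [FF_rep n1 hz, b1, b2, div_eq_iff_eq_mul] at g8
  exact g8

/-- **The basic step.** -/
theorem two (h : LC c r0 w0 C) (hex : ∀ᶠ r in 𝓝 r0, ∃ a, At r 0 w0 a) :
    ∃ U ∈ 𝓝 (1 : D), ∃ R ∈ 𝓝 r0, ∃ V0 ∈ 𝓝 (0 : D), ∃ V1 ∈ 𝓝 w0, ∀ (z b : D) (e e' : E),
      z ≠ 0 → z⁻¹ * b ∈ R → Va K c U V0 z e → Va K c U V1 b e' → e' = C (z⁻¹ * b) * e := by
  have h1 : ∀ᶠ p : D × D in 𝓝 (1, r0), ∀ t : K, star t = t → t ≠ 0 → algebraMap K D t = p.1 →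
      C (t • p.2) = C p.2 := h.smul hex
  rw [nhds_prod_eq] at h1
  obtain ⟨p1, q1, p2, q2, g1⟩ := eventually_prod_iff.mp h1
  obtain ⟨U, hU, R, hR, V0, hV0, V1, hV1, H⟩ := two_aux (K := K) h (O := {x | p1 x}) q1
  refine ⟨U, hU, R ∩ {x | p2 x}, inter_mem hR q2, V0, hV0, V1, hV1, ?_⟩
  intro z b e e' hz hr h2 h3
  obtain ⟨t, ht, t0, hp, h4⟩ := H z b e e' hz hr.1 h2 h3
  rw [h4, g1 hp hr.2 t ht t0 rfl]

/-- Existence of values near `w₀ w₀⋆`. -/
theorem Rep.exists_va {S : Set D} (hR : Rep K S w0) (c : D → E) {U V : Set D}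
    (hU : U ∈ 𝓝 (1 : D)) (hV : V ∈ 𝓝 w0) :
    ∀ᶠ s in 𝓝 (w0 * star w0), ∀ z : D, z + star z = s → s ∈ S → ∃ e, Va K c U V z e := by
  filter_upwards [hR U hU V hV] with s hs z hz hS
  obtain ⟨t, h1, h2, h3, y, h4, h5⟩ := hs hS
  exact ⟨_, t, h1, h2, h3, y, h4, by rw [hz, h5], rfl⟩

end top

end Vale.Agent.P011.H158.Psi
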