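import Vale.Agent.P011.H439.Syl

/-!
# Coefficients of a polynomial annihilating an element

The coefficients of the characteristic polynomial of left multiplication by `r` depend
continuously on `r`.
-/

open Matrix Polynomial Filter Topology Module

set_option linter.unusedSectionVars false

namespace Vale.Agent.P011.H158.Psi

open Vale.Agent.P011.H439

variable {K D : Type*} [Field K] [DivisionRing D] [Algebra K D] [FiniteDimensional K D]

theorem eq_Pc {m : ℕ} {p : K[X]} (hp : p.Monic) (hd : p.natDegree = m) :
    p = Pc fun i : Fin m => p.coeff i := by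
  rw [Pc]
  conv_lhs => rw [hp.as_sum, hd]
  congr 1
  exact (Fin.sum_univ_eq_sum_range (fun i => C (p.coeff i) * X ^ i) m).symm

/-- The coefficients of the characteristic polynomial of left multiplication. -/
noncomputable def cf (K : Type*) {D : Type*} [Field K] [DivisionRing D] [Algebra K D]
    [FiniteDimensional K D] (r : D) : Fin (finrank K D) → K :=
  fun i => (LinearMap.charpoly (Algebra.lmul K D r)).coeff i

theorem Pc_cf (r : D) : Pc (cf K r) = LinearMap.charpoly (Algebra.lmul K D r) :=
  (eq_Pc (LinearMap.charpoly_monic _) (LinearMap.charpoly_natDegree _)).symm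

theorem aeval_cf (r : D) : aeval r (Pc (cf K r)) = 0 := by
  rw [Pc_cf]
  have h := LinearMap.aeval_self_charpoly (Algebra.lmul K D r)
  have h2 : aeval (Algebra.lmul K D r) (LinearMap.charpoly (Algebra.lmul K D r)) =
      Algebra.lmul K D (aeval r (LinearMap.charpoly (Algebra.lmul K D r))) :=
    Polynomial.aeval_algHom_apply (Algebra.lmul K D) r _
  rw [h2] at h
  have h3 := congrFun (congrArg DFunLike.coe h) (1 : D)
  simpa using h3

theorem Pc_cf_scalar (κ : K) : Pc (cf K (algebraMap K D κ)) = (X - C κ) ^ finrank K D := by
  rw [Pc_cf]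
  have h : (Algebra.lmul K D (algebraMap K D κ)) = algebraMap K (Module.End K D) κ := by
    ext x
    simp [Algebra.smul_def]
  rw [h]
  rw [← LinearMap.charpoly_toMatrix _ (finBasis K D), LinearMap.toMatrix_algebraMap]
  rw [Matrix.charpoly, Matrix.charmatrix]
  have : (Matrix.scalar (Fin (finrank K D))) (X : K[X]) -
      (C.mapMatrix ((Matrix.scalar (Fin (finrank K D))) κ)) =
      (Matrix.scalar (Fin (finrank K D))) (X - C κ) := by
    ext i j
    by_cases hij : i = j
    · subst hij; simp
    · simp [hij]
  rw [this]
  simp

theorem Pc_sc [StarRing K] {m : ℕ} (c : Fin m → K) :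
    Pc (sc c) = (Pc c).map (starRingEnd K) := by
  simp [Pc, sc, Polynomial.map_sum, starRingEnd_apply]

/-- The polynomial at a nonsymmetric central element is coprime to its conjugate. -/
theorem cop_base [StarRing K] {κ : K} (hκ : star κ ≠ κ) :
    IsCoprime (Pc (cf K (algebraMap K D κ))) (Pc (sc (cf K (algebraMap K D κ)))) := by
  rw [Pc_sc, Pc_cf_scalar, Polynomial.map_pow, Polynomial.map_sub, map_X, map_C]
  refine IsCoprime.pow ?_
  exact isCoprime_X_sub_C_of_isUnit_sub (sub_ne_zero.mpr (Ne.symm hκ)).isUnit

variable [TopologicalSpace K] [IsTopologicalRing K] [TopologicalSpace D]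

theorem cont_cf {ι : Type*} [Fintype ι] [DecidableEq ι] (B : Basis ι K D)
    (hB : ∀ i, Continuous fun x : D => B.repr x i) [ContinuousMul D] :
    Continuous (cf K : D → Fin (finrank K D) → K) := by
  refine continuous_pi fun j => ?_
  have h : ∀ r : D, cf K r j = MvPolynomial.eval
      (fun ij : ι × ι => B.repr (r * B ij.2) ij.1) ((Matrix.charpoly.univ K ι).coeff j) := by
    intro r
    rw [cf, ← LinearMap.charpoly_toMatrix _ B]
    have := Matrix.charpoly.univ_coeff_eval₂Hom (R := K) (S := K) (n := ι) (RingHom.id K)
      (fun ij : ι × ι => B.repr (r * B ij.2) ij.1) j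
    have e : (Matrix.of (Function.curry fun ij : ι × ι => B.repr (r * B ij.2) ij.1)) =
        LinearMap.toMatrix B B (Algebra.lmul K D r) := by
      ext i k
      simp [LinearMap.toMatrix_apply]
    rw [e] at this
    rw [← this]
    rfl
  simp only [h]
  refine (MvPolynomial.continuous_eval _).comp ?_
  exact continuous_pi fun ij => (hB ij.1).comp (continuous_id.mul continuous_const)

end Vale.Agent.P011.H158.Psi
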