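import Vale.Agent.P011.H158.Psi.Main

/-!
# Invariance under conjugation
-/

open Filter Topology

set_option linter.unusedSectionVars false

namespace Vale.Agent.P011.H158.Psi

open Vale.Agent.P011.H436.OddN

variable {K D E : Type*} [Field K] [StarRing K] [DivisionRing D] [StarRing D] [Algebra K D]
  [StarModule K D] [CommGroup E] {κ : K} {c : D → E} {C C1 C2 : D → E} {S : Set D}

/-- The scalar at `(0, y)` for `r = ν y y⋆`-type elements: `r = ν s` with `s = y y⋆` and `ν`
central. -/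
theorem at_ks {ν : K} (hν : star ν ≠ ν) (y : D) :
    At (algebraMap K D ν * (y * star y)) 0 y (algebraMap K D (a0 ν)) := by
  have hs : star (y * star y) = y * star y := by rw [star_mul, star_star]
  refine ⟨?_, ?_⟩
  · rw [star_alg, a0_star, map_neg, add_neg_cancel, zero_mul]
  · have e1 : algebraMap K D (a0 ν) * (algebraMap K D ν * (y * star y)) =
        algebraMap K D (a0 ν * ν) * (y * star y) := by rw [map_mul, mul_assoc]
    rw [← star_mul, e1, star_mul, hs, star_alg, ← Algebra.commutes, ← add_mul, ← map_add,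
      a0_one hν, map_one, one_mul]

theorem uu_ks {ν : K} (hν : star ν ≠ ν) {y : D} (hy : y ≠ 0) :
    uu y (algebraMap K D (a0 ν) * (algebraMap K D ν * (y * star y))) =
      algebraMap K D (star ν / ν) := by
  have hν0 : ν ≠ 0 := kne hν
  have hsy : star y ≠ 0 := by simpa using hy
  have h0 : ν - star ν ≠ 0 := sub_ne_zero.mpr (Ne.symm hν)
  have e1 : algebraMap K D (a0 ν) * (algebraMap K D ν * (y * star y)) =
      algebraMap K D (a0 ν * ν) * (y * star y) := by rw [map_mul, mul_assoc]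
  have e2 : star y * (algebraMap K D (a0 ν * ν) * (y * star y))⁻¹ * y =
      algebraMap K D (a0 ν * ν)⁻¹ := by
    rw [mul_inv_rev, mul_inv_rev, ← map_inv₀]
    have : star y * ((star y)⁻¹ * y⁻¹ * algebraMap K D (a0 ν * ν)⁻¹) * y =
        (star y * (star y)⁻¹) * (y⁻¹ * (algebraMap K D (a0 ν * ν)⁻¹ * y)) := by
      simp only [mul_assoc]
    rw [this, mul_inv_cancel₀ hsy, one_mul, Algebra.commutes, ← mul_assoc, inv_mul_cancel₀ hy,
      one_mul]
  rw [uu, e1, e2, ← map_one (algebraMap K D), ← map_sub]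
  congr 1
  rw [a0]
  field_simp
  ring

theorem unit_ratio {ν : K} (hν : star ν ≠ ν) : (star ν / ν) * star (star ν / ν) = 1 := by
  have hν0 : ν ≠ 0 := kne hν
  have hν1 : star ν ≠ 0 := by simpa using hν0
  rw [star_div₀, star_star]
  field_simp

variable [TopologicalSpace D] [IsTopologicalDivisionRing D] [ContinuousStar D] [T1Space D]

/-- The value at `ν y y⋆` near `(κ w w⋆, w)`. -/
theorem val_ks (hκ : star κ ≠ κ) (hc1 : c 1 = 1)
    (hK : ∀ u : K, u * star u = 1 → c (algebraMap K D u) = 1) {w : D} {s0 : D}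
    (hs0 : s0 = w * star w) (hw : w ≠ 0)
    (h : LC c (algebraMap K D κ * s0) w C) :
    ∀ᶠ p : D × D in 𝓝 (1, w), ∀ t : K, star t = t → t ≠ 0 → algebraMap K D t = p.1 →
      C (t • (algebraMap K D κ * (p.2 * star p.2))) = 1 := by
  have hcont : ContinuousAt (fun p : D × D =>
      (p.1 * (algebraMap K D κ * (p.2 * star p.2)), (0 : D), p.2)) (1, w) := by
    refine ContinuousAt.prodMk (continuousAt_fst.mul (continuousAt_const.mul
      (continuousAt_snd.mul ?_))) (continuousAt_const.prodMk continuousAt_snd)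
    exact (continuous_star.comp continuous_snd).continuousAt
  have f1 := hcont.eventually (p := fun p : D × D × D => ∀ a : D, At p.1 p.2.1 p.2.2 a →
    FF c p.1 p.2.1 p.2.2 a = C p.1) (by
      unfold LC at h
      show ∀ᶠ y in 𝓝 ((1 : D) * (algebraMap K D κ * (w * star w)), (0 : D), w), _
      rw [one_mul, ← hs0]; exact h)
  have f2 : ∀ᶠ p : D × D in 𝓝 (1, w), p.2 ≠ 0 := by
    have : ContinuousAt (fun p : D × D => p.2) (1, w) := continuousAt_snd
    exact this.eventually_ne hw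
  filter_upwards [f1, f2] with p h1 hp t ht t0 htp
  have hsk : star (t * κ) ≠ t * κ := by
    rw [star_mul', ht]
    exact fun h => hκ (mul_left_cancel₀ t0 h)
  have e1 : t • (algebraMap K D κ * (p.2 * star p.2)) =
      algebraMap K D (t * κ) * (p.2 * star p.2) := by
    rw [Algebra.smul_def, map_mul, mul_assoc]
  have e2 : p.1 * (algebraMap K D κ * (p.2 * star p.2)) =
      algebraMap K D (t * κ) * (p.2 * star p.2) := by
    rw [← htp, map_mul, mul_assoc]
  have h2 := h1 (algebraMap K D (a0 (t * κ))) (by rw [e2]; exact at_ks hsk p.2)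
  simp only [e2] at h2
  rw [FF, uu_zero, hc1, div_one, uu_ks hsk hp, hK _ (unit_ratio hsk)] at h2
  rw [e1, ← h2]

theorem at_kw {ν : K} (hν : star ν ≠ ν) (w : D) :
    At (algebraMap K D ν) 0 w (algebraMap K D (a0 ν) * (w * star w)) := by
  have hs : star (w * star w) = w * star w := by rw [star_mul, star_star]
  refine ⟨?_, ?_⟩
  · rw [star_mul, hs, star_alg, ← Algebra.commutes, ← add_mul, ← map_add, a0_star,
      add_neg_cancel, map_zero, zero_mul, zero_mul]
  · rw [← star_mul, ← Algebra.commutes ν, ← mul_assoc, ← map_mul, star_mul, hs, star_alg,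
      ← Algebra.commutes (star (ν * a0 ν)), ← add_mul, ← map_add, mul_comm ν, a0_one hν, map_one,
      one_mul]

theorem uu_kw {ν : K} (hν : star ν ≠ ν) {w : D} (hw : w ≠ 0) :
    uu w (algebraMap K D (a0 ν) * (w * star w) * algebraMap K D ν) =
      algebraMap K D (star ν / ν) := by
  rw [← uu_ks hν hw]
  congr 1
  rw [mul_assoc, Algebra.commutes ν (w * star w)]

/-- The value at central elements, at any base vector. -/
theorem val_kw (hκ : star κ ≠ κ) (hc1 : c 1 = 1)
    (hK : ∀ u : K, u * star u = 1 → c (algebraMap K D u) = 1) {w : D} (hw : w ≠ 0)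
    (h : LC c (algebraMap K D κ) w C) :
    ∀ᶠ p : D in 𝓝 1, ∀ t : K, star t = t → t ≠ 0 → algebraMap K D t = p →
      C (t • algebraMap K D κ) = 1 := by
  have hcont : ContinuousAt (fun p : D => p * algebraMap K D κ) 1 :=
    continuousAt_id.mul continuousAt_const
  have f1 := hcont.eventually (p := fun r : D => ∀ a : D, At r 0 w a → FF c r 0 w a = C r) (by
      show ∀ᶠ y in 𝓝 ((1 : D) * algebraMap K D κ), _
      rw [one_mul]; exact h.zero)
  filter_upwards [f1] with p h1 t ht t0 htp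
  have hsk : star (t * κ) ≠ t * κ := by
    rw [star_mul', ht]
    exact fun h => hκ (mul_left_cancel₀ t0 h)
  have e1 : t • algebraMap K D κ = algebraMap K D (t * κ) := by
    rw [Algebra.smul_def, map_mul]
  have e2 : p * algebraMap K D κ = algebraMap K D (t * κ) := by
    rw [← htp, map_mul]
  have h2 := h1 _ (by rw [e2]; exact at_kw hsk w)
  simp only [e2] at h2
  rw [FF, uu_zero, hc1, div_one, uu_kw hsk hw, hK _ (unit_ratio hsk)] at h2
  rw [e1, ← h2]

/-- **Invariance under conjugation**: for `x` near `x₀`, `a` central near `a₀` and `g` near `1`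
the functional has the same value at `g` and at `x⋆ g x⋆⁻¹`, as soon as
`a g, a x⋆ g x⋆⁻¹, a κ, a g κ` are in the domain. -/
theorem psi_conj (hκ : star κ ≠ κ) (hc1 : c 1 = 1)
    (hK : ∀ u : K, u * star u = 1 → c (algebraMap K D u) = 1)
    (hS : ∀ x : D, x ≠ 0 → ∀ s ∈ S, x * s * star x ∈ S)
    (h : LC c (algebraMap K D κ) 1 C)
    (hex : ∀ᶠ r in 𝓝 (algebraMap K D κ), ∃ a, At r 0 1 a) (hR0 : Rep K S 0)
    (hR1 : Rep K S 1) {x0 : D} (hx0 : x0 ≠ 0) (hRx : Rep K S (star x0))
    (h1 : LC c (algebraMap K D κ) (star x0) C1)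
    (h2 : LC c (algebraMap K D κ * (star x0 * x0)) (star x0) C2) :
    ∀ᶠ p : D × D × D in 𝓝 (x0, algebraMap K D (a0 κ), 1),
      ∀ α : K, algebraMap K D α = p.2.1 →
      algebraMap K D α * p.2.2 + star (algebraMap K D α * p.2.2) ∈ S →
      algebraMap K D α * (star p.1 * p.2.2 * (star p.1)⁻¹) +
        star (algebraMap K D α * (star p.1 * p.2.2 * (star p.1)⁻¹)) ∈ S →
      algebraMap K D α * algebraMap K D κ + star (algebraMap K D α * algebraMap K D κ) ∈ S →
      algebraMap K D α * p.2.2 * algebraMap K D κ +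
        star (algebraMap K D α * p.2.2 * algebraMap K D κ) ∈ S →
      psi κ C (star p.1 * p.2.2 * (star p.1)⁻¹) = psi κ C p.2.2 := by
  have hsx0 : star x0 ≠ 0 := by simpa using hx0
  -- the three basic steps
  obtain ⟨U, hU, R, hR, V0, hV0, V1, hV1, H⟩ := two (K := K) h hex
  have k1 := val_kw hκ hc1 hK hsx0 h1
  obtain ⟨U1, hU1, R1, hR1', V01, hV01, V11, hV11, H1⟩ := two_aux (K := K) h1 k1
  have k2 := val_ks hκ hc1 hK (s0 := star x0 * x0) (by rw [star_star]) hsx0 h2
  rw [nhds_prod_eq] at k2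
  obtain ⟨q1, hq1, q2, hq2, k3⟩ := eventually_prod_iff.mp k2
  obtain ⟨U2, hU2, R2, hR2', V02, hV02, V12, hV12, H2⟩ := two_aux (K := K) h2 (O := {x | q1 x}) hq1
  -- a neighbourhood of zero which is moved into `V01`
  have m1 : ContinuousAt (fun p : D × D => star p.1 * p.2) (x0, 0) :=
    (continuous_star.comp continuous_fst).continuousAt.mul continuousAt_snd
  have m2 : ∀ᶠ p : D × D in 𝓝 (x0, 0), star p.1 * p.2 ∈ V01 := by
    refine m1.eventually (p := fun x => x ∈ V01) ?_
    show ∀ᶠ y in 𝓝 (star x0 * 0), y ∈ V01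
    rw [mul_zero]; exact hV01
  rw [nhds_prod_eq] at m2
  obtain ⟨q3, hq3, q4, hq4, m3⟩ := eventually_prod_iff.mp m2
  set U' := U ∩ (U1 ∩ U2) with hU'
  have nU' : U' ∈ 𝓝 (1 : D) := inter_mem hU (inter_mem hU1 hU2)
  set V' := V0 ∩ (V02 ∩ {x | q4 x}) with hV'
  have nV' : V' ∈ 𝓝 (0 : D) := inter_mem hV0 (inter_mem hV02 hq4)
  have nVx : V11 ∩ V12 ∈ 𝓝 (star x0) := inter_mem hV11 hV12
  -- continuity
  have cx : ContinuousAt (fun p : D × D × D => star p.1) (x0, algebraMap K D (a0 κ), 1) :=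
    (continuous_star.comp continuous_fst).continuousAt
  have cx' : ContinuousAt (fun p : D × D × D => p.1) (x0, algebraMap K D (a0 κ), 1) :=
    continuous_fst.continuousAt
  have ca : ContinuousAt (fun p : D × D × D => p.2.1) (x0, algebraMap K D (a0 κ), 1) :=
    (continuous_fst.comp continuous_snd).continuousAt
  have cg : ContinuousAt (fun p : D × D × D => p.2.2) (x0, algebraMap K D (a0 κ), 1) :=
    (continuous_snd.comp continuous_snd).continuousAt
  have cxi : ContinuousAt (fun p : D × D × D => (star p.1)⁻¹) (x0, algebraMap K D (a0 κ), 1) :=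
    cx.inv₀ hsx0
  have cg' : ContinuousAt (fun p : D × D × D => star p.1 * p.2.2 * (star p.1)⁻¹)
      (x0, algebraMap K D (a0 κ), 1) := (cx.mul cg).mul cxi
  have vg' : star x0 * 1 * (star x0)⁻¹ = (1 : D) := by
    rw [mul_one, mul_inv_cancel₀ hsx0]
  have hA0 : algebraMap K D (a0 κ) ≠ 0 := (map_ne_zero _).mpr (a0_ne hκ)
  have v1 : algebraMap K D (a0 κ) + star (algebraMap K D (a0 κ)) = 0 * star (0 : D) := by
    rw [star_alg, a0_star, map_neg, add_neg_cancel, zero_mul]
  have v2 : algebraMap K D (a0 κ) * algebraMap K D κ +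
      star (algebraMap K D (a0 κ) * algebraMap K D κ) = 1 := by
    rw [← map_mul, star_alg, ← map_add, a0_one hκ, map_one]
  -- the values
  have f1 : ∀ᶠ p : D × D × D in 𝓝 (x0, algebraMap K D (a0 κ), 1),
      ∀ z : D, z + star z = p.2.1 * p.2.2 + star (p.2.1 * p.2.2) →
        p.2.1 * p.2.2 + star (p.2.1 * p.2.2) ∈ S → ∃ e, Va K c U' V' z e := by
    have := (ca.mul cg).add ((ca.mul cg).star)
    refine this.eventually (p := fun s => ∀ z : D, z + star z = s → s ∈ S →
      ∃ e, Va K c U' V' z e) ?_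
    show ∀ᶠ y in 𝓝 (algebraMap K D (a0 κ) * 1 + star (algebraMap K D (a0 κ) * 1)), _
    rw [mul_one, v1]; exact hR0.exists_va c nU' nV'
  have f2 : ∀ᶠ p : D × D × D in 𝓝 (x0, algebraMap K D (a0 κ), 1),
      ∀ z : D, z + star z = p.2.1 * (star p.1 * p.2.2 * (star p.1)⁻¹) +
        star (p.2.1 * (star p.1 * p.2.2 * (star p.1)⁻¹)) →
        p.2.1 * (star p.1 * p.2.2 * (star p.1)⁻¹) +
        star (p.2.1 * (star p.1 * p.2.2 * (star p.1)⁻¹)) ∈ S → ∃ e, Va K c U' V' z e := by
    have := (ca.mul cg').add ((ca.mul cg').star)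
    refine this.eventually (p := fun s => ∀ z : D, z + star z = s → s ∈ S →
      ∃ e, Va K c U' V' z e) ?_
    show ∀ᶠ y in 𝓝 (algebraMap K D (a0 κ) * (star x0 * 1 * (star x0)⁻¹) +
      star (algebraMap K D (a0 κ) * (star x0 * 1 * (star x0)⁻¹))), _
    rw [vg', mul_one, v1]; exact hR0.exists_va c nU' nV'
  have f3 : ∀ᶠ p : D × D × D in 𝓝 (x0, algebraMap K D (a0 κ), 1),
      ∀ z : D, z + star z = p.2.1 * algebraMap K D κ + star (p.2.1 * algebraMap K D κ) →
        p.2.1 * algebraMap K D κ + star (p.2.1 * algebraMap K D κ) ∈ S →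
          ∃ e, Va K c U' V1 z e := by
    have := (ca.mul_const (algebraMap K D κ)).add ((ca.mul_const (algebraMap K D κ)).star)
    refine this.eventually (p := fun s => ∀ z : D, z + star z = s → s ∈ S →
      ∃ e, Va K c U' V1 z e) ?_
    show ∀ᶠ y in 𝓝 (algebraMap K D (a0 κ) * algebraMap K D κ +
      star (algebraMap K D (a0 κ) * algebraMap K D κ)), _
    have e : (1 : D) = 1 * star (1 : D) := by rw [star_one, mul_one]
    rw [v2, e]
    exact hR1.exists_va c nU' hV1
  have f4 : ∀ᶠ p : D × D × D in 𝓝 (x0, algebraMap K D (a0 κ), 1),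
      ∀ z : D, z + star z = star p.1 * (p.2.1 * p.2.2 * algebraMap K D κ +
        star (p.2.1 * p.2.2 * algebraMap K D κ)) * p.1 →
        star p.1 * (p.2.1 * p.2.2 * algebraMap K D κ +
        star (p.2.1 * p.2.2 * algebraMap K D κ)) * p.1 ∈ S →
          ∃ e, Va K c U' (V11 ∩ V12) z e := by
    have := (cx.mul (((ca.mul cg).mul_const (algebraMap K D κ)).add
      (((ca.mul cg).mul_const (algebraMap K D κ)).star))).mul cx'
    refine this.eventually (p := fun s => ∀ z : D, z + star z = s → s ∈ S →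
      ∃ e, Va K c U' (V11 ∩ V12) z e) ?_
    show ∀ᶠ y in 𝓝 (star x0 * (algebraMap K D (a0 κ) * 1 * algebraMap K D κ +
      star (algebraMap K D (a0 κ) * 1 * algebraMap K D κ)) * x0), _
    have e : star x0 * x0 = star x0 * star (star x0) := by rw [star_star]
    rw [mul_one, v2, mul_one, e]
    exact hRx.exists_va c nU' nVx
  -- the ratios
  have f5 : ∀ᶠ p : D × D × D in 𝓝 (x0, algebraMap K D (a0 κ), 1),
      (p.2.2)⁻¹ * algebraMap K D κ ∈ R := by
    refine ((cg.inv₀ one_ne_zero).mul_const (algebraMap K D κ)).eventually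
      (p := fun x => x ∈ R) ?_
    show ∀ᶠ y in 𝓝 ((1 : D)⁻¹ * algebraMap K D κ), y ∈ R
    rw [inv_one, one_mul]; exact hR
  have f6 : ∀ᶠ p : D × D × D in 𝓝 (x0, algebraMap K D (a0 κ), 1),
      (star p.1 * p.2.2 * (star p.1)⁻¹)⁻¹ * algebraMap K D κ ∈ R := by
    have := cg'.inv₀ (by show star x0 * 1 * (star x0)⁻¹ ≠ 0; rw [vg']; exact one_ne_zero)
    refine (this.mul_const (algebraMap K D κ)).eventually (p := fun x => x ∈ R) ?_
    show ∀ᶠ y in 𝓝 ((star x0 * 1 * (star x0)⁻¹)⁻¹ * algebraMap K D κ), y ∈ R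
    rw [vg', inv_one, one_mul]; exact hR
  have f7 : ∀ᶠ p : D × D × D in 𝓝 (x0, algebraMap K D (a0 κ), 1),
      algebraMap K D κ * (star p.1 * p.1) ∈ R2 := by
    refine (continuousAt_const.mul (cx.mul cx')).eventually (p := fun x => x ∈ R2) ?_
    exact hR2'
  have f8 : ∀ᶠ p : D × D × D in 𝓝 (x0, algebraMap K D (a0 κ), 1), q2 (star p.1) :=
    cx.eventually hq2
  have f9 : ∀ᶠ p : D × D × D in 𝓝 (x0, algebraMap K D (a0 κ), 1), q3 p.1 :=
    cx'.eventually hq3
  have f10 : ∀ᶠ p : D × D × D in 𝓝 (x0, algebraMap K D (a0 κ), 1), p.1 ≠ 0 :=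
    cx'.eventually_ne hx0
  have f11 : ∀ᶠ p : D × D × D in 𝓝 (x0, algebraMap K D (a0 κ), 1), p.2.1 ≠ 0 :=
    ca.eventually_ne hA0
  have f12 : ∀ᶠ p : D × D × D in 𝓝 (x0, algebraMap K D (a0 κ), 1), p.2.2 ≠ 0 :=
    cg.eventually_ne one_ne_zero
  filter_upwards [f1, f2, f3, f4, f5, f6, f7, f8, f9, f10, f11, f12] with p g1 g2 g3 g4 g5 g6
    g7 g8 g9 g10 g11 g12 α hα s1 s2 s3 s4
  obtain ⟨x, a, g⟩ := p
  simp only at *
  subst hα
  have hx' : star x ≠ 0 := by simpa using g10
  set κ' := algebraMap K D κ with hκ'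
  set a := algebraMap K D α with ha
  have hcm : ∀ y : D, κ' * y = y * κ' := fun y => Algebra.commutes κ y
  have hcma : ∀ y : D, a * y = y * a := fun y => Algebra.commutes α y
  set g' := star x * g * (star x)⁻¹ with hg'
  have hg'0 : g' ≠ 0 := mul_ne_zero (mul_ne_zero hx' g12) (inv_ne_zero hx')
  obtain ⟨e1, w1⟩ := g1 _ rfl s1
  obtain ⟨e2, w2⟩ := g2 _ rfl s2
  obtain ⟨e3, w3⟩ := g3 _ rfl s3
  have b1 : a * g' * (star x * x) * κ' = star x * (a * g * κ') * x := by
    have : a * g' * (star x * x) * κ' =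
        a * (star x * g * ((star x)⁻¹ * star x)) * x * κ' := by
      rw [hg']; simp only [mul_assoc]
    rw [this, inv_mul_cancel₀ hx', mul_one, mul_assoc, ← hcm, ← mul_assoc a, hcma (star x)]
    simp only [mul_assoc]
  have b2 : star x * (a * g * κ') * x + star (star x * (a * g * κ') * x) =
      star x * (a * g * κ' + star (a * g * κ')) * x := by
    simp only [star_mul, star_star]
    noncomm_ring
  have b3 : star x * (a * g * κ' + star (a * g * κ')) * x ∈ S := by
    have := hS (star x) hx' _ s4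
    rwa [star_star] at this
  obtain ⟨e4, w4⟩ := g4 _ b2 b3
  rw [← b1] at w4
  have hU1' : U' ⊆ U := fun y hy => hy.1
  have hU2' : U' ⊆ U1 := fun y hy => hy.2.1
  have hU3' : U' ⊆ U2 := fun y hy => hy.2.2
  have hVa : V' ⊆ V0 := fun y hy => hy.1
  have hVb : V' ⊆ V02 := fun y hy => hy.2.1
  -- first two relations
  have r1 : e3 = C (g⁻¹ * κ') * e1 := by
    have e : (a * g)⁻¹ * (a * κ') = g⁻¹ * κ' := by
      rw [mul_inv_rev, mul_assoc, ← mul_assoc a⁻¹, inv_mul_cancel₀ g11, one_mul]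
    rw [← e]
    exact H _ _ _ _ (mul_ne_zero g11 g12) (by rw [e]; exact g5) (w1.mono hU1' hVa)
      (w3.mono hU1' subset_rfl)
  have r2 : e3 = C (g'⁻¹ * κ') * e2 := by
    have e : (a * g')⁻¹ * (a * κ') = g'⁻¹ * κ' := by
      rw [mul_inv_rev, mul_assoc, ← mul_assoc a⁻¹, inv_mul_cancel₀ g11, one_mul]
    rw [← e]
    exact H _ _ _ _ (mul_ne_zero g11 hg'0) (by rw [e]; exact g6) (w2.mono hU1' hVa)
      (w3.mono hU1' subset_rfl)
  -- third relation
  have w5 : Va K c U' V01 (a * g' * (star x * x)) e1 := by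
    have : a * g' * (star x * x) = star x * (a * g) * star (star x) := by
      rw [star_star, hg']
      have : a * (star x * g * (star x)⁻¹) * (star x * x) =
        a * (star x * g * ((star x)⁻¹ * star x)) * x := by simp only [mul_assoc]
      rw [this, inv_mul_cancel₀ hx', mul_one, ← mul_assoc, hcma (star x)]
      simp only [mul_assoc]
    rw [this]
    exact w1.conj hx' fun y hy => m3 g9 hy.2.2
  have hsx : star x * x ≠ 0 := mul_ne_zero hx' g10
  have r3 : e4 = e1 := by
    have e : (a * g' * (star x * x))⁻¹ * (a * g' * (star x * x) * κ') = κ' := by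
      rw [← mul_assoc, inv_mul_cancel₀ (mul_ne_zero (mul_ne_zero g11 hg'0) hsx), one_mul]
    obtain ⟨t, t1, t2, t3, t4⟩ := H1 _ _ _ _ (mul_ne_zero (mul_ne_zero g11 hg'0) hsx)
      (by rw [e]; exact mem_of_mem_nhds hR1') (w5.mono hU2' subset_rfl)
      (w4.mono hU2' (fun y hy => hy.1))
    rw [e, t3 t t1 t2 rfl, one_mul] at t4
    exact t4
  -- fourth relation
  have r4 : e4 = e2 := by
    have e : (a * g')⁻¹ * (a * g' * (star x * x) * κ') = κ' * (star x * x) := by
      rw [mul_assoc (a * g'), ← mul_assoc (a * g')⁻¹, inv_mul_cancel₀ (mul_ne_zero g11 hg'0),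
        one_mul, hcm]
    obtain ⟨t, t1, t2, t3, t4⟩ := H2 _ _ _ _ (mul_ne_zero g11 hg'0)
      (by rw [e]; exact g7) (w2.mono hU3' hVb) (w4.mono hU3' (fun y hy => hy.2))
    have := k3 t3 g8 t t1 t2 rfl
    rw [star_star] at this
    rw [e, this, one_mul] at t4
    exact t4
  have r5 : C (g'⁻¹ * κ') = C (g⁻¹ * κ') := by
    rw [← r4, r3] at r2
    rw [r1] at r2
    exact (mul_right_cancel r2).symm
  rw [psi, psi, r5]

end Vale.Agent.P011.H158.Psi
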