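import Vale.Agent.P011.H439.Near
import Vale.Agent.P011.H158.Psi.Cf
import Vale.Agent.P011.H158.Psi.Conj

/-!
# From local constancy for columns to the two-point functional near a central base point
-/

open Matrix Polynomial Filter Topology Module

set_option linter.unusedSectionVars false

namespace Vale.Agent.P011.H158.Psi

open Vale.Agent.P011.H439
open Vale.Agent.P011.H95.Odd (AtB Inv2)

variable {K D E : Type*} [Field K] [StarRing K] [DivisionRing D] [StarRing D] [Algebra K D]
  [StarModule K D] [AddCommGroup E]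

/-- One by one matrices. -/
def i1 (x : D) : Matrix (Fin 1) (Fin 1) D := Matrix.of fun _ _ => x

@[simp] theorem i1_apply (x : D) (i j : Fin 1) : i1 x i j = x := rfl

theorem i1_mul (x y : D) : i1 x * i1 y = i1 (x * y) := by
  ext i j; simp [Matrix.mul_apply]

theorem i1_add (x y : D) : i1 x + i1 y = i1 (x + y) := rfl

theorem i1_sub (x y : D) : i1 x - i1 y = i1 (x - y) := rfl

theorem i1_zero : i1 (0 : D) = 0 := rfl

theorem i1_one : i1 (1 : D) = 1 := by
  ext i j
  rw [Subsingleton.elim i j]; simp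

theorem i1_star (x : D) : (i1 x)ᴴ = i1 (star x) := rfl

theorem i1_eq (A : Matrix (Fin 1) (Fin 1) D) : A = i1 (A 0 0) := by
  ext i j
  rw [Subsingleton.elim i 0, Subsingleton.elim j 0]; rfl

theorem inv2_i1 {a : D} (ha : a ≠ 0) : Inv2 (i1 a) (i1 a⁻¹) :=
  ⟨by rw [i1_mul, mul_inv_cancel₀ ha, i1_one], by rw [i1_mul, inv_mul_cancel₀ ha, i1_one]⟩

theorem isUnit_i1 {a : D} (ha : a ≠ 0) : IsUnit (i1 a) := isUnit_of_inv2 (inv2_i1 ha)

theorem atB_i1 {r y1 y2 a : D} (h1 : a + star a = y1 * star y1)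
    (h2 : a * r + star (a * r) = y2 * star y2) : AtB (i1 r) (i1 y1) (i1 y2) (i1 a) := by
  refine ⟨?_, ?_⟩
  · rw [i1_star, i1_star, i1_mul, i1_add, h1]
  · rw [i1_star, i1_star, i1_star, i1_mul, i1_mul, i1_mul, i1_add, ← h2, star_mul]

/-- The map to matrices as an algebra homomorphism. -/
theorem aeval_i1 (r : D) (p : K[X]) : aeval (i1 r) p = i1 (aeval r p) := by
  have h : ∀ x : D, Matrix.scalarAlgHom (Fin 1) K x = i1 x := by
    intro x
    ext i j
    rw [Subsingleton.elim i j]; simp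
  rw [← h, ← h]
  exact Polynomial.aeval_algHom_apply (Matrix.scalarAlgHom (Fin 1) K) r p

variable [TopologicalSpace D]

theorem cont_i1 : Continuous (i1 : D → Matrix (Fin 1) (Fin 1) D) :=
  continuous_matrix fun _ _ => continuous_id

variable {W : Set D} {ch : D → E} {κ : K}

section alg

/-- The value of a state. -/
theorem FF_i1 {m : ℕ} {c : Fin m → K} {r y1 y2 a : D} (hann : aeval (i1 r) (Pc c) = 0)
    (hcop : IsUnit (aeval (i1 r) (Pc (sc c)))) (hr : r ≠ 0) (ha : a ≠ 0)
    (h1 : a + star a = y1 * star y1) (h2 : a * r + star (a * r) = y2 * star y2) :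
    FF ch c (i1 r) (i1 y1) (i1 y2) =
      ch (1 - star y2 * (a * r)⁻¹ * y2) - ch (1 - star y1 * a⁻¹ * y1) := by
  rw [FF, u2_eq hann hcop (atB_i1 h1 h2) (inv2_i1 ha) (inv2_i1 hr),
    u1_eq hann hcop (atB_i1 h1 h2) (inv2_i1 ha)]
  simp only [H95.Odd.uu, i1_star, i1_mul, _root_.mul_inv_rev]
  rw [← i1_one]
  simp only [i1_sub, i1_apply]

end alg

/-- **The central base point**: `((X - κ)^N, κ, 0, 1)` is in the domain. -/
theorem dm_base [FiniteDimensional K D] (hκ : star κ ≠ κ) (hc : Chr K W ch) :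
    Dm W (cf K (algebraMap K D κ)) (i1 (algebraMap K D κ)) 0 (i1 (1 : D)) := by
  have hκ0 : κ ≠ 0 := kne hκ
  have hkd : algebraMap K D κ ≠ 0 := (_root_.map_ne_zero _).mpr hκ0
  have hann : aeval (i1 (algebraMap K D κ)) (Pc (cf K (algebraMap K D κ))) = 0 := by
    rw [aeval_i1, aeval_cf, i1_zero]
  have hcop : IsUnit (aeval (i1 (algebraMap K D κ)) (Pc (sc (cf K (algebraMap K D κ))))) := by
    have h1 := aeval_conj (cf K (algebraMap K D κ)) (i1 (algebraMap K D (star κ)))
    rw [i1_star, star_alg, star_star] at h1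
    rw [h1, Pc_cf_scalar, aeval_i1]
    refine isUnit_conj (isUnit_i1 ?_)
    rw [map_pow, map_sub, aeval_X, aeval_C, ← map_sub]
    exact pow_ne_zero _ ((_root_.map_ne_zero _).mpr (sub_ne_zero.mpr hκ))
  have ha0 : algebraMap K D (a0 κ) ≠ 0 := (_root_.map_ne_zero _).mpr (a0_ne hκ)
  have h1 : algebraMap K D (a0 κ) + star (algebraMap K D (a0 κ)) = (0 : D) * star 0 := by
    rw [star_alg, a0_star, map_neg, add_neg_cancel, zero_mul]
  have h2 : algebraMap K D (a0 κ) * algebraMap K D κ +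
      star (algebraMap K D (a0 κ) * algebraMap K D κ) = (1 : D) * star 1 := by
    rw [← map_mul, star_alg, ← map_add, a0_one hκ, map_one, star_one, mul_one]
  have hat := atB_i1 h1 h2
  rw [i1_zero] at hat
  have hia := inv2_i1 ha0
  refine ⟨hann, hcop, isUnit_i1 hkd, ?_, ?_, ?_⟩
  · rw [← aa_unique hann hcop hat]; exact isUnit_of_inv2 hia
  · rw [u1_eq hann hcop hat hia]
    have h3 := (hc.scal 1 (by rw [star_one, mul_one])).1
    rw [map_one] at h3
    simpa using h3
  · rw [u2_eq hann hcop hat hia (inv2_i1 hkd)]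
    have h3 := (hc.scal (star κ / κ) (unit_ratio hκ)).1
    have h4 : H95.Odd.uu (i1 (1 : D)) (i1 (algebraMap K D κ)⁻¹ * i1 (algebraMap K D (a0 κ))⁻¹) 0 0
        = algebraMap K D (star κ / κ) := by
      simp only [H95.Odd.uu, i1_star, i1_mul, star_one, one_mul, mul_one]
      rw [← i1_one, i1_sub, i1_apply, ← map_inv₀, ← map_inv₀, ← map_mul, ← map_one
        (algebraMap K D), ← map_sub]
      congr 1
      rw [a0, inv_inv]
      field_simp
      ring
    rw [h4]; exact h3

variable [IsTopologicalDivisionRing D] [ContinuousStar D] [T1Space D]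
  [TopologicalSpace K] [IsTopologicalDivisionRing K] [ContinuousStar K] [T1Space K]
  [FiniteDimensional K D]

/-- **The two-point functional near a central base point** is a function of `r` only. -/
theorem lcd_of_lc (hκ : star κ ≠ κ) (hc : Chr K W ch) (hcont : Continuous (algebraMap K D))
    {ι : Type*} [Fintype ι] [DecidableEq ι] (B : Basis ι K D)
    (hB : ∀ i, Continuous fun x : D => B.repr x i)
    (hLC : ∀ᶠ x : ((Fin (finrank K D) → K) × Sq D 1) × Col D 1 × Col D 1 × Col D 1 × Col D 1 in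
      𝓝 ((cf K (algebraMap K D κ), i1 (algebraMap K D κ)), 0, i1 1, 0, i1 1),
      aeval x.1.2 (Pc x.1.1) = 0 →
        FF ch x.1.1 x.1.2 x.2.1 x.2.2.1 = FF ch x.1.1 x.1.2 x.2.2.2.1 x.2.2.2.2) :
    ∃ C : D → E,
      (∀ᶠ x : D × D × D in 𝓝 (algebraMap K D κ, 0, 1), ∀ a : D, a ≠ 0 →
        a + star a = x.2.1 * star x.2.1 → a * x.1 + star (a * x.1) = x.2.2 * star x.2.2 →
        ch (1 - star x.2.2 * (a * x.1)⁻¹ * x.2.2) - ch (1 - star x.2.1 * a⁻¹ * x.2.1) = C x.1) ∧
      (∀ᶠ r in 𝓝 (algebraMap K D κ), ∃ a : D, a ≠ 0 ∧ a + star a = 0 ∧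
        a * r + star (a * r) = 1) := by
  have hkd : algebraMap K D κ ≠ 0 := (_root_.map_ne_zero _).mpr (kne hκ)
  have hcf : Continuous (cf K : D → Fin (finrank K D) → K) := cont_cf B hB
  have hbase := dm_base (K := K) (D := D) hκ hc
  have hnear := dm_near hcont hc hbase
  -- the maps
  have m1 : Tendsto (fun x : D × D × D =>
      (((cf K x.1, i1 x.1), i1 x.2.1, i1 x.2.2, i1 0, i1 1) :
        ((Fin (finrank K D) → K) × Sq D 1) × Col D 1 × Col D 1 × Col D 1 × Col D 1))
      (𝓝 (algebraMap K D κ, 0, 1))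
      (𝓝 ((cf K (algebraMap K D κ), i1 (algebraMap K D κ)), 0, i1 1, 0, i1 1)) := by
    have : Continuous (fun x : D × D × D =>
      (((cf K x.1, i1 x.1), i1 x.2.1, i1 x.2.2, i1 0, i1 1) :
        ((Fin (finrank K D) → K) × Sq D 1) × Col D 1 × Col D 1 × Col D 1 × Col D 1)) := by
      refine ((hcf.comp continuous_fst).prodMk (cont_i1.comp continuous_fst)).prodMk ?_
      refine (cont_i1.comp (continuous_fst.comp continuous_snd)).prodMk ?_
      exact (cont_i1.comp (continuous_snd.comp continuous_snd)).prodMk continuous_const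
    exact this.tendsto (algebraMap K D κ, 0, 1)
  have m2 : Tendsto (fun r : D =>
      (((cf K r, i1 r), i1 0, i1 1) : ((Fin (finrank K D) → K) × Sq D 1) × Col D 1 × Col D 1))
      (𝓝 (algebraMap K D κ))
      (𝓝 ((cf K (algebraMap K D κ), i1 (algebraMap K D κ)), 0, i1 1)) := by
    have : Continuous (fun r : D =>
      (((cf K r, i1 r), i1 0, i1 1) :
        ((Fin (finrank K D) → K) × Sq D 1) × Col D 1 × Col D 1)) :=
      (hcf.prodMk cont_i1).prodMk continuous_const
    exact this.tendsto (algebraMap K D κ)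
  have m3 : Tendsto (fun x : D × D × D => x.1) (𝓝 (algebraMap K D κ, 0, 1))
      (𝓝 (algebraMap K D κ)) := continuous_fst.tendsto _
  have f2 := m2.eventually hnear
  have f1 := m1.eventually hLC
  have f3 : ∀ᶠ r in 𝓝 (algebraMap K D κ), r ≠ 0 := continuousAt_id.eventually_ne hkd
  refine ⟨fun r => FF ch (cf K r) (i1 r) (i1 0) (i1 1), ?_, ?_⟩
  · filter_upwards [f1, m3.eventually f2, m3.eventually f3] with x h1 h2 h3 a ha e1 e2
    have hann : aeval (i1 x.1) (Pc (cf K x.1)) = 0 := by rw [aeval_i1, aeval_cf, i1_zero]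
    rw [← FF_i1 hann (h2 hann).cop h3 ha e1 e2]
    exact h1 hann
  · filter_upwards [f2, f3] with r h2 h3
    have hann : aeval (i1 r) (Pc (cf K r)) = 0 := by rw [aeval_i1, aeval_cf, i1_zero]
    have hd := h2 hann
    have hat := aa_atB hd.ann hd.cop (i1 (0 : D)) (i1 (1 : D))
    refine ⟨aa (cf K r) (i1 r) (i1 0) (i1 1) 0 0, ?_, ?_, ?_⟩
    · intro h0
      have h4 : aa (cf K r) (i1 r) (i1 (0 : D)) (i1 1) = 0 :=
        (i1_eq _).trans ((congrArg i1 h0).trans i1_zero)
      have h5 := hd.au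
      rw [h4] at h5
      exact not_isUnit_zero h5
    · have h4 := congrFun (congrFun hat.one 0) 0
      rw [Matrix.add_apply, star00, mul00, star00] at h4
      simpa only [i1_apply, star_zero, mul_zero] using h4
    · have h4 := congrFun (congrFun hat.two' 0) 0
      rw [Matrix.add_apply, star00, mul00, mul00, star00] at h4
      simpa only [i1_apply, star_one, mul_one] using h4

end Vale.Agent.P011.H158.Psi
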