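import Vale.Agent.P011.H158.Psi.TopK
import Vale.Agent.P011.H182.Odd.Psi
import Vale.Agent.P011.H439.LC

/-!
# Local constancy near a central base point, from local constancy in the degree of `D`
-/

open Module Topology Filter Polynomial Matrix

set_option linter.unusedSectionVars false
set_option linter.style.haveILetI false

namespace Vale.Agent.P011.H158.Psi

open Vale.Agent.P011.H775.Top Vale.Agent.P011.H439 Vale.Agent.P011.H182.Odd

section

variable {K D E : Type*} [Field K] [StarRing K] [DivisionRing D] [StarRing D] [Algebra K D]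
  [StarModule K D] [AddCommGroup E] [TopologicalSpace D]
  [IsTopologicalDivisionRing D] [ContinuousStar D] [T1Space D]
  [TopologicalSpace K] [IsTopologicalDivisionRing K] [ContinuousStar K] [T1Space K]
  [FiniteDimensional K D] {W : Set D} {ch : D → E} {κ : K}

/-- **Local constancy near a nonsymmetric scalar** from local constancy in degree `[D : K]`. -/
theorem lcd (hκ : star κ ≠ κ) (hc : Chr K W ch) (hcont : Continuous (algebraMap K D))
    {ι : Type*} [Fintype ι] [DecidableEq ι] (B : Basis ι K D)
    (hB : ∀ i, Continuous fun x : D => B.repr x i) (hLC : LCm K W ch (finrank K D)) :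
    ∃ C : D → E, LCd ch κ C := by
  obtain ⟨C, h1, h2⟩ := lcd_of_lc hκ hc hcont B hB
    (hLC 1 _ _ _ (cop_base hκ) (dm_base hκ hc))
  exact ⟨C, hκ, h1, h2⟩

end

section

variable {k K D E : Type*} [Field k] [Field K] [StarRing K] [DivisionRing D] [StarRing D]
  [Algebra k D] [Algebra k K] [Algebra K D] [IsScalarTower k K D] [StarModule K D]
  [AddCommGroup E] [FiniteDimensional K D] {ι κ : Type*} [Fintype ι] [Fintype κ]
  [Nonempty ι]

/-- **The same in the topology given by finitely many absolute values of the base field.** -/
theorem lcd_topD (B : Basis κ k D) (a : ι → AbsoluteValue k ℝ)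
    (hsk : ∀ (c : k) (x : D), star (c • x) = c • star x) {W : Set D} {ch : D → E} {κ' : K}
    (hκ : star κ' ≠ κ')
    (hc : @Chr K D E _ _ _ _ _ (topD B a) _ W ch)
    (hLC : @LCm K D E _ _ _ _ _ (topI K (topD B a)) (topD B a) _ W ch (finrank K D)) :
    ∃ C : D → E, @LCd K D E _ _ _ _ _ (topD B a) _ ch κ' C := by
  letI τ : TopologicalSpace D := topD B a
  letI τK : TopologicalSpace K := topI K τ
  haveI := isTopologicalDivisionRing B a
  haveI : T2Space D := t2 B a
  haveI := continuousStar B a hsk
  haveI := topI_isTopologicalDivisionRing (F := K) τ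
  haveI : T2Space K := topI_t2 τ
  haveI := topI_continuousStar (F := K) τ (fun c => star_alg c)
  exact lcd hκ hc (topI_continuous τ) (finBasis K D) (cont_coord B a (finBasis K D)) hLC

end

end Vale.Agent.P011.H158.Psi
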