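import Vale.Agent.P011.H158.Psi.Base

/-!
# The homomorphism attached to a character of unitary elements

`psi κ C g = (C (g⁻¹ κ))⁻¹`, where `C` is the value of the two-point functional near the central
base `(κ, 0, 1)`.  It is multiplicative near `1`, invariant under conjugation, and on elements
which commute with their adjoint it is `c (g⋆ g⁻¹)`.
-/

open Filter Topology

set_option linter.unusedSectionVars false

namespace Vale.Agent.P011.H158.Psi

open Vale.Agent.P011.H436.OddN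

variable {K D E : Type*} [Field K] [StarRing K] [DivisionRing D] [StarRing D] [Algebra K D]
  [StarModule K D] [CommGroup E]

/-- The homomorphism. -/
def psi (κ : K) (C : D → E) (g : D) : E := (C (g⁻¹ * algebraMap K D κ))⁻¹

/-- The base point `1 / (κ - κ̄)`. -/
def a0 (κ : K) : K := (κ - star κ)⁻¹

section central

variable {κ : K} {c : D → E} {W : Set D}

theorem star_alg (κ : K) : star (algebraMap K D κ) = algebraMap K D (star κ) :=
  (algebraMap_star' κ).symm

/-- The scalar at `(0, 1)` for an element which commutes with its adjoint. -/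
theorem at_comm {r : D} (h : r * star r = star r * r) (hne : star r ≠ r) :
    At r 0 1 (r - star r)⁻¹ := by
  have h0 : r - star r ≠ 0 := sub_ne_zero.mpr (Ne.symm hne)
  have h1 : star (r - star r)⁻¹ = -(r - star r)⁻¹ := by
    rw [star_inv₀, star_sub, star_star, ← neg_sub, inv_neg]
  have h2 : star r * (r - star r)⁻¹ = (r - star r)⁻¹ * star r := by
    have : Commute (star r) (r - star r) := by
      refine Commute.sub_right ?_ (Commute.refl _)
      exact h.symm
    exact this.inv_right₀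
  refine ⟨?_, ?_⟩
  · rw [h1]; simp
  · rw [h1, mul_neg, h2, ← sub_eq_add_neg, ← mul_sub, inv_mul_cancel₀ h0]; simp

theorem uu_comm {r : D} (hr : r ≠ 0) (hne : star r ≠ r) :
    uu 1 ((r - star r)⁻¹ * r) = r⁻¹ * star r := by
  have h0 : r - star r ≠ 0 := sub_ne_zero.mpr (Ne.symm hne)
  rw [uu, star_one, one_mul, mul_one, mul_inv_rev, inv_inv, mul_sub, inv_mul_cancel₀ hr]
  abel

theorem FF_comm (hc1 : c 1 = 1) {r : D} (hr : r ≠ 0) (hne : star r ≠ r) :
    FF c r 0 1 (r - star r)⁻¹ = c (r⁻¹ * star r) := by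
  rw [FF, uu_zero, hc1, div_one, uu_comm hr hne]

end central

section main

variable [TopologicalSpace D] [IsTopologicalDivisionRing D] {κ : K} {c : D → E} {C C1 C2 : D → E}
  {S : Set D}

/-- The base scalar is not zero. -/
theorem kne (hκ : star κ ≠ κ) : κ ≠ 0 := by
  rintro rfl
  exact hκ (star_zero K)

theorem kneD (hκ : star κ ≠ κ) : algebraMap K D κ ≠ 0 :=
  (map_ne_zero _).mpr (kne hκ)

theorem a0_ne (hκ : star κ ≠ κ) : a0 κ ≠ 0 :=
  inv_ne_zero (sub_ne_zero.mpr (Ne.symm hκ))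

theorem a0_star (κ : K) : star (a0 κ) = -a0 κ := by
  rw [a0, star_inv₀, star_sub, star_star, ← neg_sub, inv_neg]

theorem a0_one (hκ : star κ ≠ κ) : a0 κ * κ + star (a0 κ * κ) = 1 := by
  rw [star_mul', a0_star, a0]
  have : κ - star κ ≠ 0 := sub_ne_zero.mpr (Ne.symm hκ)
  field_simp
  ring

/-- The value at central elements. -/
theorem val_scalar [ContinuousStar D] [T1Space D] (hκ : star κ ≠ κ) (hc1 : c 1 = 1)
    (hK : ∀ u : K, u * star u = 1 → c (algebraMap K D u) = 1)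
    (h : LC c (algebraMap K D κ) 1 C) :
    ∀ᶠ r in 𝓝 (algebraMap K D κ), ∀ ν : K, algebraMap K D ν = r → C r = 1 := by
  have h1 := h.zero
  have h2 : ∀ᶠ r in 𝓝 (algebraMap K D κ), star r ≠ r := by
    have hcont : Continuous fun r : D => star r - r := continuous_star.sub continuous_id
    have : star (algebraMap K D κ) - algebraMap K D κ ≠ 0 := by
      rw [star_alg, ← map_sub]
      exact (map_ne_zero _).mpr (sub_ne_zero.mpr hκ)
    filter_upwards [hcont.continuousAt.eventually_ne this] with r hr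
    exact sub_ne_zero.mp hr
  filter_upwards [h1, h2] with r h3 h4 ν hν
  have hr0 : r ≠ 0 := by rintro rfl; exact h4 (star_zero D)
  have h5 : r * star r = star r * r := by
    rw [← hν, star_alg, ← map_mul, ← map_mul, mul_comm]
  rw [← h3 _ (at_comm h5 h4), FF_comm hc1 hr0 h4, ← hν, star_alg, ← map_inv₀, ← map_mul]
  apply hK
  have hν0 : ν ≠ 0 := by
    rintro rfl
    exact hr0 (by rw [← hν, map_zero])
  have hν1 : star ν ≠ 0 := by simpa using hν0
  rw [star_mul', star_inv₀, star_star]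
  field_simp

/-- Existence of a neighbourhood of `a₀` on which the values exist and the first step holds. -/
theorem step [ContinuousStar D] [T1Space D] (hκ : star κ ≠ κ) (h : LC c (algebraMap K D κ) 1 C)
    (hex : ∀ᶠ r in 𝓝 (algebraMap K D κ), ∃ a, At r 0 1 a) (hR0 : Rep K S 0)
    (hR1 : Rep K S 1) :
    ∃ U ∈ 𝓝 (1 : D), ∃ V0 ∈ 𝓝 (0 : D), ∃ V1 ∈ 𝓝 (1 : D), ∃ A ∈ 𝓝 (algebraMap K D (a0 κ)),
      ∃ G ∈ 𝓝 (1 : D),
      (∀ z ∈ A, z ≠ 0) ∧
      (∀ z ∈ A, z + star z ∈ S → ∃ e, Va K c U V0 z e) ∧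
      (∀ z ∈ A, z * algebraMap K D κ + star (z * algebraMap K D κ) ∈ S →
        ∃ e, Va K c U V1 (z * algebraMap K D κ) e) ∧
      (∀ z ∈ A, ∀ g ∈ G, ∀ e e', Va K c U V0 (z * g) e →
        Va K c U V1 (z * algebraMap K D κ) e' →
        e' = C (g⁻¹ * algebraMap K D κ) * e) := by
  obtain ⟨U, hU, R, hR, V0, hV0, V1, hV1, H⟩ := two (K := K) h hex
  have hA0 : algebraMap K D (a0 κ) ≠ 0 := (map_ne_zero _).mpr (a0_ne hκ)
  -- values near zero
  have c1 : ContinuousAt (fun z : D => z + star z) (algebraMap K D (a0 κ)) :=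
    (continuous_id.add continuous_star).continuousAt
  have v1 : algebraMap K D (a0 κ) + star (algebraMap K D (a0 κ)) = 0 * star (0 : D) := by
    rw [star_alg, a0_star, map_neg, add_neg_cancel, zero_mul]
  have f1 := c1.eventually (p := fun s => ∀ z : D, z + star z = s → s ∈ S →
    ∃ e, Va K c U V0 z e) (by
      show ∀ᶠ s in 𝓝 (algebraMap K D (a0 κ) + star (algebraMap K D (a0 κ))), _
      rw [v1]; exact hR0.exists_va c hU hV0)
  have c2 : ContinuousAt (fun z : D => z * algebraMap K D κ + star (z * algebraMap K D κ))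
      (algebraMap K D (a0 κ)) := by
    have : Continuous fun z : D => z * algebraMap K D κ := continuous_id.mul continuous_const
    exact (this.add (continuous_star.comp this)).continuousAt
  have v2 : algebraMap K D (a0 κ) * algebraMap K D κ +
      star (algebraMap K D (a0 κ) * algebraMap K D κ) = 1 * star (1 : D) := by
    rw [← map_mul, star_alg, ← map_add, a0_one hκ, map_one, star_one, mul_one]
  have f2 := c2.eventually (p := fun s => ∀ z : D, z + star z = s → s ∈ S →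
    ∃ e, Va K c U V1 z e) (by
      show ∀ᶠ s in 𝓝 (algebraMap K D (a0 κ) * algebraMap K D κ +
        star (algebraMap K D (a0 κ) * algebraMap K D κ)), _
      rw [v2]; exact hR1.exists_va c hU hV1)
  have f3 : ∀ᶠ z in 𝓝 (algebraMap K D (a0 κ)), z ≠ 0 := continuousAt_id.eventually_ne hA0
  have c4 : ContinuousAt (fun g : D => g⁻¹ * algebraMap K D κ) 1 := by
    exact (continuousAt_inv₀ one_ne_zero).mul continuousAt_const
  have f4 : ∀ᶠ g in 𝓝 (1 : D), g⁻¹ * algebraMap K D κ ∈ R := by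
    refine c4.eventually (p := fun x => x ∈ R) ?_
    show ∀ᶠ y in 𝓝 ((1 : D)⁻¹ * algebraMap K D κ), y ∈ R
    rw [inv_one, one_mul]; exact hR
  have f5 : ∀ᶠ g in 𝓝 (1 : D), g ≠ 0 := continuousAt_id.eventually_ne one_ne_zero
  refine ⟨U, hU, V0, hV0, V1, hV1, _, (f1.and (f2.and f3)), _, (f4.and f5), ?_, ?_, ?_, ?_⟩
  · intro z hz; exact hz.2.2
  · intro z hz hS; exact hz.1 z rfl hS
  · intro z hz hS; exact hz.2.1 _ rfl hS
  · intro z hz g hg e e' h1 h2
    have e1 : (z * g)⁻¹ * (z * algebraMap K D κ) = g⁻¹ * algebraMap K D κ := by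
      rw [mul_inv_rev, mul_assoc, ← mul_assoc z⁻¹, inv_mul_cancel₀ hz.2.2, one_mul]
    rw [← e1]
    exact H (z * g) _ e e' (mul_ne_zero hz.2.2 hg.2) (by rw [e1]; exact hg.1) h1 h2

/-- **The functional is multiplicative near `1`.** -/
theorem psi_mul [ContinuousStar D] [T1Space D] (hκ : star κ ≠ κ) (hc1 : c 1 = 1)
    (hK : ∀ u : K, u * star u = 1 → c (algebraMap K D u) = 1)
    (h : LC c (algebraMap K D κ) 1 C)
    (hex : ∀ᶠ r in 𝓝 (algebraMap K D κ), ∃ a, At r 0 1 a) (hR0 : Rep K S 0)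
    (hR1 : Rep K S 1) :
    ∀ᶠ p : D × D × D in 𝓝 (algebraMap K D (a0 κ), 1, 1),
      p.1 + star p.1 ∈ S →
      p.1 * p.2.1 + star (p.1 * p.2.1) ∈ S →
      p.1 * (p.2.1 * p.2.2) + star (p.1 * (p.2.1 * p.2.2)) ∈ S →
      p.1 * algebraMap K D κ + star (p.1 * algebraMap K D κ) ∈ S →
      p.1 * p.2.1 * algebraMap K D κ + star (p.1 * p.2.1 * algebraMap K D κ) ∈ S →
      psi κ C (p.2.1 * p.2.2) = psi κ C p.2.1 * psi κ C p.2.2 := by
  obtain ⟨U, hU, V0, hV0, V1, hV1, A, hA, G, hG, H0, H1, H2, H3⟩ := step (S := S) hκ h hex hR0 hR1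
  have hval : C (algebraMap K D κ) = 1 := (val_scalar hκ hc1 hK h).self_of_nhds κ rfl
  have cA : ContinuousAt (fun p : D × D × D => p.1) (algebraMap K D (a0 κ), 1, 1) :=
    continuous_fst.continuousAt
  have cg1 : ContinuousAt (fun p : D × D × D => p.2.1) (algebraMap K D (a0 κ), 1, 1) :=
    (continuous_fst.comp continuous_snd).continuousAt
  have cg2 : ContinuousAt (fun p : D × D × D => p.2.2) (algebraMap K D (a0 κ), 1, 1) :=
    (continuous_snd.comp continuous_snd).continuousAt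
  have k1 : ∀ᶠ p : D × D × D in 𝓝 (algebraMap K D (a0 κ), 1, 1), p.1 ∈ A := cA.eventually hA
  have k2 : ∀ᶠ p : D × D × D in 𝓝 (algebraMap K D (a0 κ), 1, 1), p.1 * p.2.1 ∈ A := by
    refine (cA.mul cg1).eventually (p := fun x => x ∈ A) ?_
    show ∀ᶠ y in 𝓝 (algebraMap K D (a0 κ) * 1), y ∈ A
    rw [mul_one]; exact hA
  have k3 : ∀ᶠ p : D × D × D in 𝓝 (algebraMap K D (a0 κ), 1, 1), p.1 * (p.2.1 * p.2.2) ∈ A := by
    refine (cA.mul (cg1.mul cg2)).eventually (p := fun x => x ∈ A) ?_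
    show ∀ᶠ y in 𝓝 (algebraMap K D (a0 κ) * (1 * 1)), y ∈ A
    rw [mul_one, mul_one]; exact hA
  have k4 : ∀ᶠ p : D × D × D in 𝓝 (algebraMap K D (a0 κ), 1, 1), p.2.1 ∈ G := cg1.eventually hG
  have k5 : ∀ᶠ p : D × D × D in 𝓝 (algebraMap K D (a0 κ), 1, 1), p.2.2 ∈ G := cg2.eventually hG
  have k6 : ∀ᶠ p : D × D × D in 𝓝 (algebraMap K D (a0 κ), 1, 1), p.2.1 * p.2.2 ∈ G := by
    refine (cg1.mul cg2).eventually (p := fun x => x ∈ G) ?_
    show ∀ᶠ y in 𝓝 ((1 : D) * 1), y ∈ G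
    rw [mul_one]; exact hG
  have h1G : (1 : D) ∈ G := mem_of_mem_nhds hG
  filter_upwards [k1, k2, k3, k4, k5, k6] with p m1 m2 m3 m4 m5 m6 s1 s2 s3 s4 s5
  obtain ⟨e0, v0⟩ := H1 _ m1 s1
  obtain ⟨e1, v1⟩ := H1 _ m2 s2
  obtain ⟨e2, v2⟩ := H1 _ m3 s3
  obtain ⟨e3, v3⟩ := H2 _ m1 s4
  obtain ⟨e4, v4⟩ := H2 _ m2 s5
  have w1 := H3 _ m1 1 h1G e0 e3 (by rw [mul_one]; exact v0) v3
  have w2 := H3 _ m1 _ m4 e1 e3 v1 v3
  have w3 := H3 _ m1 _ m6 e2 e3 v2 v3
  have w4 := H3 _ m2 1 h1G e1 e4 (by rw [mul_one]; exact v1) v4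
  have w5 := H3 _ m2 _ m5 e2 e4 (by rw [mul_assoc]; exact v2) v4
  rw [inv_one, one_mul, hval, one_mul] at w1 w4
  rw [w1] at w2 w3
  rw [w4] at w5
  simp only [psi]
  have x1 : (C (p.2.1⁻¹ * algebraMap K D κ))⁻¹ = e1 / e0 := by
    rw [w2]; simp
  have x2 : (C (p.2.2⁻¹ * algebraMap K D κ))⁻¹ = e2 / e1 := by
    rw [w5]; simp
  have x3 : (C ((p.2.1 * p.2.2)⁻¹ * algebraMap K D κ))⁻¹ = e2 / e0 := by
    rw [w3]; simp
  rw [x1, x2, x3, mul_comm, div_mul_div_cancel]

/-- The value at an element which commutes with its adjoint. -/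
theorem psi_comm [ContinuousStar D] [T1Space D] {W : Set D} (hκ : star κ ≠ κ) (hc : Chr W c)
    (hKW : ∀ u : K, u * star u = 1 → algebraMap K D u ∈ W)
    (hK : ∀ u : K, u * star u = 1 → c (algebraMap K D u) = 1)
    (hW : ∀ᶠ u in 𝓝 (1 : D), u * star u = 1 → u ∈ W)
    (h : LC c (algebraMap K D κ) 1 C) :
    ∀ᶠ g in 𝓝 (1 : D), g * star g = star g * g → psi κ C g = c (star g * g⁻¹) := by
  have h1 := h.zero
  have h2 : ∀ᶠ r in 𝓝 (algebraMap K D κ), star r ≠ r := by
    have hcont : Continuous fun r : D => star r - r := continuous_star.sub continuous_id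
    have : star (algebraMap K D κ) - algebraMap K D κ ≠ 0 := by
      rw [star_alg, ← map_sub]
      exact (map_ne_zero _).mpr (sub_ne_zero.mpr hκ)
    filter_upwards [hcont.continuousAt.eventually_ne this] with r hr
    exact sub_ne_zero.mp hr
  have c4 : ContinuousAt (fun g : D => g⁻¹ * algebraMap K D κ) 1 := by
    exact (continuousAt_inv₀ one_ne_zero).mul continuousAt_const
  have f1 : ∀ᶠ g in 𝓝 (1 : D), (∀ a : D, At (g⁻¹ * algebraMap K D κ) 0 1 a →
      FF c (g⁻¹ * algebraMap K D κ) 0 1 a = C (g⁻¹ * algebraMap K D κ)) ∧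
      star (g⁻¹ * algebraMap K D κ) ≠ g⁻¹ * algebraMap K D κ := by
    refine c4.eventually (p := fun r => (∀ a : D, At r 0 1 a → FF c r 0 1 a = C r) ∧
      star r ≠ r) ?_
    show ∀ᶠ y in 𝓝 ((1 : D)⁻¹ * algebraMap K D κ), _
    rw [inv_one, one_mul]; exact h1.and h2
  have f2 : ∀ᶠ g in 𝓝 (1 : D), g ≠ 0 := continuousAt_id.eventually_ne one_ne_zero
  have c5 : ContinuousAt (fun g : D => star g * g⁻¹) 1 :=
    continuous_star.continuousAt.mul (continuousAt_inv₀ one_ne_zero)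
  have f3 : ∀ᶠ g in 𝓝 (1 : D), (star g * g⁻¹) * star (star g * g⁻¹) = 1 →
      star g * g⁻¹ ∈ W := by
    refine c5.eventually (p := fun u => u * star u = 1 → u ∈ W) ?_
    show ∀ᶠ y in 𝓝 (star (1 : D) * (1 : D)⁻¹), _
    rw [inv_one, star_one, mul_one]; exact hW
  filter_upwards [f1, f2, f3] with g g1 g2 g3 g4
  have hg' : star g ≠ 0 := by simpa using g2
  have hk := kneD (D := D) hκ
  have hcm : ∀ x : D, algebraMap K D κ * x = x * algebraMap K D κ := fun x =>
    Algebra.commutes κ x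
  have hcm' : ∀ x : D, algebraMap K D (star κ) * x = x * algebraMap K D (star κ) := fun x =>
    Algebra.commutes _ x
  have i1 : g⁻¹ * star g = star g * g⁻¹ := by
    have : Commute g (star g) := g4
    exact (this.symm.inv_right₀).eq.symm
  have i2 : g * (star g)⁻¹ = (star g)⁻¹ * g := by
    have : Commute g (star g) := g4
    exact this.inv_right₀.eq
  have i3 : g⁻¹ * (star g)⁻¹ = (star g)⁻¹ * g⁻¹ := by
    rw [← mul_inv_rev, ← mul_inv_rev, g4]
  set r := g⁻¹ * algebraMap K D κ with hr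
  have hr0 : r ≠ 0 := mul_ne_zero (inv_ne_zero g2) hk
  have hsr : star r = algebraMap K D (star κ) * (star g)⁻¹ := by
    rw [hr, star_mul, star_alg, star_inv₀]
  have hcomm : r * star r = star r * r := by
    rw [hsr, hr]
    calc g⁻¹ * algebraMap K D κ * (algebraMap K D (star κ) * (star g)⁻¹)
        = g⁻¹ * (algebraMap K D κ * (algebraMap K D (star κ) * (star g)⁻¹)) := by
          rw [mul_assoc]
      _ = g⁻¹ * ((star g)⁻¹ * (algebraMap K D (star κ) * algebraMap K D κ)) := by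
          rw [hcm, hcm', mul_assoc]
      _ = ((star g)⁻¹ * g⁻¹) * (algebraMap K D (star κ) * algebraMap K D κ) := by
          rw [← mul_assoc, i3]
      _ = algebraMap K D (star κ) * (star g)⁻¹ * (g⁻¹ * algebraMap K D κ) := by
          rw [hcm' (star g)⁻¹]
          simp only [mul_assoc]
          rw [← mul_assoc (algebraMap K D (star κ)) g⁻¹, hcm' g⁻¹, mul_assoc]
  have w1 := g1.1 _ (at_comm hcomm g1.2)
  rw [FF_comm hc.map_one hr0 g1.2] at w1
  -- the unitary element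
  have hν0 : κ ≠ 0 := kne hκ
  have hν1 : star κ ≠ 0 := by simpa using hν0
  have e1 : r⁻¹ * star r = algebraMap K D (κ⁻¹ * star κ) * (g * (star g)⁻¹) := by
    rw [hsr, hr, mul_inv_rev, inv_inv, map_mul, map_inv₀]
    simp only [mul_assoc]
    congr 1
    rw [← mul_assoc, ← hcm', mul_assoc]
  have u1 : (κ⁻¹ * star κ) * star (κ⁻¹ * star κ) = 1 := by
    rw [star_mul', star_inv₀, star_star]
    field_simp
  have u2 : (star g * g⁻¹) * star (star g * g⁻¹) = 1 := by
    rw [star_mul, star_star, star_inv₀, mul_assoc, ← mul_assoc g⁻¹, i3, mul_assoc,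
      inv_mul_cancel₀ g2, mul_one, mul_inv_cancel₀ hg']
  have m1 := g3 u2
  have e2 : star (star g * g⁻¹) = g * (star g)⁻¹ := by
    rw [star_mul, star_star, star_inv₀, i2]
  have m2 : g * (star g)⁻¹ ∈ W := e2 ▸ hc.st _ m1
  rw [e1, hc.map _ (hKW _ u1) _ m2, hK _ u1, one_mul, ← e2, hc.map_star m1] at w1
  rw [psi, ← hr, ← w1, inv_inv]

end main

end Vale.Agent.P011.H158.Psi
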