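import Vale.Agent.P011.H775.Odd.Top
import Vale.Agent.P011.H158.Psi.Base3

/-!
# Continuity of the coordinates over the centre

In the topology of a division algebra given by finitely many absolute values of the base field
the coordinates with respect to a basis over a central field are continuous.
-/

open Module Topology Filter Polynomial Matrix

set_option linter.unusedSectionVars false
set_option linter.style.haveILetI false

namespace Vale.Agent.P011.H158.Psi

open Vale.Agent.P011.H775.Top Vale.Agent.P011.H439

section

variable {k K D : Type*} [Field k] [Field K] [DivisionRing D] [Algebra k D]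
  [Algebra k K] [Algebra K D] [IsScalarTower k K D] {ι κ : Type*} [Fintype ι] [Fintype κ]
  [Nonempty ι] (B : Basis κ k D) (a : ι → AbsoluteValue k ℝ)

/-- Linear maps are continuous. -/
theorem cont_linear (f : D →ₗ[k] D) : @Continuous D D (topD B a) (topD B a) f := by
  obtain ⟨C, hC, hs⟩ := sz_linear B a f
  letI := topD B a
  refine continuous_iff_continuousAt.mpr fun x₀ => ?_
  change Tendsto _ _ _
  rw [tendsto_iff B a]
  have h1 : Tendsto (fun x => C * sz B a (x - x₀)) (𝓝 x₀) (𝓝 (C * 0)) :=
    ((tendsto_iff B a).mp tendsto_id).const_mul C
  rw [mul_zero] at h1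
  refine squeeze_zero (fun x => sz_nonneg B a _) (fun x => ?_) h1
  rw [← map_sub]
  exact hs (x - x₀)

/-- **The coordinates over the central field are continuous.** -/
theorem cont_coord {η : Type*} (B' : Basis η K D) (i : η) :
    @Continuous D K (topD B a) (topI K (topD B a)) fun x => B'.repr x i := by
  letI := topD B a
  letI := topI K (topD B a)
  rw [(topI_inducing (F := K) (topD B a)).continuous_iff]
  have h : (algebraMap K D) ∘ (fun x : D => B'.repr x i) =
      ((IsScalarTower.toAlgHom k K D).toLinearMap ∘ₗ ((B'.coord i).restrictScalars k) :
        D →ₗ[k] D) := by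
    funext x
    simp [Basis.coord_apply]
  rw [h]
  exact cont_linear B a _

end

end Vale.Agent.P011.H158.Psi
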